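import Vale.Agent.P246.Bdl.B2

/-!
# The D(2) property for free abelian groups (algebraic form)

For `G = ℤ^n`: every finite algebraic D(2) complex over `ℤ[G]` is chain homotopy equivalent to the
Fox complex of a finite presentation of `G`; two such complexes with the same Euler characteristic
are chain homotopy equivalent; and the Euler characteristics that occur are exactly the integers
`k ≥ 1 - n + n(n-1)/2`.
-/

namespace Vale.Agent.Results.P246.FreeAbelian

open Vale.Agent.P246

theorem result (n : ℕ) : AlgebraicD2Property (Multiplicative (Fin n → ℤ)) ∧
    ClassifiedByEuler (Multiplicative (Fin n → ℤ)) (1 - n + n.choose 2) :=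
  d2_main n

end Vale.Agent.Results.P246.FreeAbelian
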